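import Mathlib

namespace Vale.Agent.P015

def wallMod (D H : ℕ) : ℕ :=
  ∏ a ∈ Finset.range (D + 1), ∏ b ∈ Finset.range (H + 1), ((a + 3) ^ 2 + b ^ 2)

lemma wallMod_pos (D H : ℕ) : 0 < wallMod D H := by
  unfold wallMod
  apply Finset.prod_pos
  intro a _
  apply Finset.prod_pos
  intro b _
  positivity

lemma dvd_wallMod {D H a b : ℕ} (ha : a ≤ D) (hb : b ≤ H) :
    ((a + 3) ^ 2 + b ^ 2) ∣ wallMod D H := by
  unfold wallMod
  have h1 : (∏ b ∈ Finset.range (H + 1), ((a + 3) ^ 2 + b ^ 2)) ∣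
      ∏ a ∈ Finset.range (D + 1), ∏ b ∈ Finset.range (H + 1), ((a + 3) ^ 2 + b ^ 2) :=
    Finset.dvd_prod_of_mem (fun a => ∏ b ∈ Finset.range (H + 1), ((a + 3) ^ 2 + b ^ 2))
      (Finset.mem_range.mpr (by omega))
  have h2 : ((a + 3) ^ 2 + b ^ 2) ∣ ∏ b ∈ Finset.range (H + 1), ((a + 3) ^ 2 + b ^ 2) :=
    Finset.dvd_prod_of_mem (fun b => ((a + 3) ^ 2 + b ^ 2)) (Finset.mem_range.mpr (by omega))
  exact h2.trans h1

lemma wallMod_le (D H : ℕ) :
    wallMod D H ≤ ((D + 3) ^ 2 + H ^ 2) ^ ((D + 1) * (H + 1)) := by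
  unfold wallMod
  calc ∏ a ∈ Finset.range (D + 1), ∏ b ∈ Finset.range (H + 1), ((a + 3) ^ 2 + b ^ 2)
      ≤ ∏ _a ∈ Finset.range (D + 1), ∏ _b ∈ Finset.range (H + 1), ((D + 3) ^ 2 + H ^ 2) := by
        apply Finset.prod_le_prod' 
        intro a ha
        apply Finset.prod_le_prod'
        intro b hb
        have ha' : a ≤ D := by have := Finset.mem_range.mp ha; omega
        have hb' : b ≤ H := by have := Finset.mem_range.mp hb; omega
        have h1 : (a + 3) ^ 2 ≤ (D + 3) ^ 2 := Nat.pow_le_pow_left (by omega) 2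
        have h2 : b ^ 2 ≤ H ^ 2 := Nat.pow_le_pow_left hb' 2
        omega
    _ = ((D + 3) ^ 2 + H ^ 2) ^ ((D + 1) * (H + 1)) := by
        simp only [Finset.prod_const, Finset.card_range]
        rw [← pow_mul, mul_comm]

lemma not_irreducible_wall (L : ℤ) (w u : GaussianInt) (hL : 0 < L) (hw : w ≠ 0)
    (hu : 9 ≤ u.norm) (hdvd : u.norm ∣ L) : ¬ Irreducible ((L : GaussianInt) * w + u) := by
  intro hirr
  have h1 : u ∣ (L : GaussianInt) := by
    have h2 : u ∣ ((u.norm : ℤ) : GaussianInt) := by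
      rw [Zsqrtd.norm_eq_mul_conj]
      exact Dvd.intro _ rfl
    have h3 : ((u.norm : ℤ) : GaussianInt) ∣ (L : GaussianInt) := by
      exact_mod_cast (Int.cast_dvd_cast (α := GaussianInt) _ _ hdvd)
    exact h2.trans h3
  obtain ⟨k, hk⟩ : u ∣ (L : GaussianInt) * w := Dvd.dvd.mul_right h1 w
  have hnorm : (L * L) * w.norm = u.norm * k.norm := by
    have := congrArg Zsqrtd.norm hk
    rw [Zsqrtd.norm_mul, Zsqrtd.norm_mul, Zsqrtd.norm_intCast] at this
    exact this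
  have hwn : 1 ≤ w.norm := by
    have h0 : 0 ≤ w.norm := GaussianInt.norm_nonneg w
    have h1 : w.norm ≠ 0 := by
      intro h
      exact hw ((Zsqrtd.norm_eq_zero_iff (by norm_num) w).mp h)
    omega
  have huL : u.norm ≤ L := Int.le_of_dvd hL hdvd
  have hkn : 9 ≤ k.norm := by
    by_contra hlt
    rw [not_le] at hlt
    have h0 : 0 ≤ k.norm := GaussianInt.norm_nonneg k
    nlinarith
  have hfac : (L : GaussianInt) * w + u = u * (k + 1) := by rw [hk]; ring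
  rw [hfac] at hirr
  rcases hirr.isUnit_or_isUnit rfl with h | h
  · have := Zsqrtd.norm_eq_one_iff.mpr h
    omega
  · have h5 := Zsqrtd.norm_eq_one_iff.mpr h
    have h6 : 0 ≤ (k + 1).norm := GaussianInt.norm_nonneg _
    have h7 : (k + 1).norm = 1 := by omega
    rw [Zsqrtd.norm_def] at h7 hkn
    simp only [Zsqrtd.re_add, Zsqrtd.im_add, Zsqrtd.re_one, Zsqrtd.im_one] at h7
    nlinarith [sq_nonneg (k.re + 1), sq_nonneg k.im, sq_nonneg (k.re + 2), sq_nonneg k.re]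

lemma crossing (x : ℕ → ℤ) (D A : ℤ) (hstep : ∀ n, |x (n + 1) - x n| ≤ D) (N : ℕ)
    (h0 : ∀ k ≤ N, |x k| < A) (hex : ∃ n, A ≤ |x n|) :
    ∃ n, N < n ∧ A ≤ |x n| ∧ |x n| < A + D := by
  classical
  let n := Nat.find hex
  have hn : A ≤ |x n| := Nat.find_spec hex
  have hNn : N < n := by
    by_contra h
    rw [not_lt] at h
    have := h0 n h
    omega
  obtain ⟨j, hj⟩ : ∃ j, n = j + 1 := ⟨n - 1, by omega⟩
  have hjlt : ¬ A ≤ |x j| := Nat.find_min hex (by omega)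
  rw [not_le] at hjlt
  refine ⟨n, hNn, hn, ?_⟩
  have h1 := hstep j
  rw [← hj] at h1
  have h2 : |x n| ≤ |x j| + |x n - x j| := by
    have := abs_add_le (x j) (x n - x j)
    simpa using this
  omega



lemma wall_block (D H : ℕ) (m n0 s X Y : ℤ) (hs : s = 1 ∨ s = -1) (hm : 0 < m)
    (hX1 : (wallMod D H : ℤ) * m + 3 ≤ s * X) (hX2 : s * X ≤ (wallMod D H : ℤ) * m + D + 3)
    (hY : |Y - s * ((wallMod D H : ℤ) * n0)| ≤ H) : ¬ Irreducible (⟨X, Y⟩ : GaussianInt) := by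
  set L : ℤ := (wallMod D H : ℤ) with hLdef
  have hLpos : 0 < L := by
    rw [hLdef]
    exact_mod_cast wallMod_pos D H
  have hss : s * s = 1 := by rcases hs with h | h <;> simp [h]
  set a : ℤ := s * X - L * m with ha
  set b : ℤ := Y - s * (L * n0) with hb
  have hXe : X = L * (s * m) + s * a := by
    have : s * a = (s * s) * X - s * (L * m) := by rw [ha]; ring
    rw [this, hss]; ring
  have hYe : Y = L * (s * n0) + b := by rw [hb]; ring
  have hdecomp : (⟨X, Y⟩ : GaussianInt) = (L : GaussianInt) * ⟨s * m, s * n0⟩ + ⟨s * a, b⟩ := by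
    apply Zsqrtd.ext
    · simp [hXe.symm]
    · simp [hYe.symm]
  rw [hdecomp]
  have hnorm : (⟨s * a, b⟩ : GaussianInt).norm = a ^ 2 + b ^ 2 := by
    rw [Zsqrtd.norm_def]
    simp only
    have : s * a * (s * a) = (s * s) * (a * a) := by ring
    rw [this, hss]; ring
  apply not_irreducible_wall L _ _ hLpos
  · intro h
    have h1 := congrArg Zsqrtd.re h
    simp only [Zsqrtd.re_zero] at h1
    rcases hs with h2 | h2 <;> rw [h2] at h1 <;> omega
  · rw [hnorm]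
    have h3 : 3 ≤ a := by omega
    nlinarith [sq_nonneg b]
  · rw [hnorm]
    have h3 : 3 ≤ a := by omega
    have h4 : a ≤ D + 3 := by omega
    obtain ⟨α, hα⟩ : ∃ α : ℕ, a = α + 3 := ⟨(a - 3).toNat, by omega⟩
    have hαD : α ≤ D := by omega
    have hβH : b.natAbs ≤ H := by
      have h7 : |b| ≤ H := hY
      rw [Int.abs_eq_natAbs] at h7
      exact_mod_cast h7
    have h5 := dvd_wallMod hαD hβH
    have h6 : a ^ 2 + b ^ 2 = (((α + 3) ^ 2 + b.natAbs ^ 2 : ℕ) : ℤ) := by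
      push_cast
      rw [hα, sq_abs]
    rw [h6, hLdef]
    exact_mod_cast h5



lemma exp_one_le_log {r : ℝ} (hr : 16 ≤ r) : Real.exp 1 ≤ Real.log r := by
  have h1 : Real.log 16 ≤ Real.log r := Real.log_le_log (by norm_num) hr
  have h2 : Real.log 16 = 4 * Real.log 2 := by
    rw [show (16 : ℝ) = 2 ^ 4 by norm_num, Real.log_pow]; norm_num
  have h3 := Real.log_two_gt_d9
  have h4 := Real.exp_one_lt_d9
  linarith

lemma one_le_log_log {r : ℝ} (hr : 16 ≤ r) : 1 ≤ Real.log (Real.log r) := by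
  have h := exp_one_le_log hr
  rw [Real.le_log_iff_exp_le (lt_of_lt_of_le (Real.exp_pos 1) h)]
  exact h

lemma far_good (x y τ γ C : ℝ) (hτ : |τ| ≤ 1) (hC : 4 ≤ C)
    (h1 : 4 * |x| ≤ Real.sqrt (x ^ 2 + y ^ 2)) (h2 : 16 ≤ Real.sqrt (x ^ 2 + y ^ 2))
    (h3 : 4 * |γ| ≤ Real.sqrt (x ^ 2 + y ^ 2)) :
    Real.log (Real.sqrt (x ^ 2 + y ^ 2)) / Real.log (Real.log (Real.sqrt (x ^ 2 + y ^ 2)))
      ≤ C * |y - τ * x - γ| := by
  set r := Real.sqrt (x ^ 2 + y ^ 2) with hr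
  have hrle : r ≤ |x| + |y| := by
    rw [hr]
    apply Real.sqrt_le_iff.mpr
    constructor
    · positivity
    · nlinarith [abs_nonneg x, abs_nonneg y, sq_abs x, sq_abs y]
  have hτx : |τ * x| ≤ |x| := by
    rw [abs_mul]
    nlinarith [abs_nonneg x, abs_nonneg τ]
  have hlow : r / 4 ≤ |y - τ * x - γ| := by
    have e1 : |y| ≤ |y - τ * x - γ| + |τ * x| + |γ| := by
      have e2 : y = (y - τ * x - γ) + τ * x + γ := by ring
      calc |y| = |(y - τ * x - γ) + τ * x + γ| := by rw [← e2]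
        _ ≤ |(y - τ * x - γ) + τ * x| + |γ| := abs_add_le _ _
        _ ≤ |y - τ * x - γ| + |τ * x| + |γ| := by
            have := abs_add_le (y - τ * x - γ) (τ * x)
            linarith
    linarith
  have hlogr : 0 ≤ Real.log r := le_trans (Real.exp_pos 1).le (exp_one_le_log h2)
  have hG : Real.log r / Real.log (Real.log r) ≤ Real.log r :=
    div_le_self hlogr (one_le_log_log h2)
  have hlr : Real.log r ≤ r := by
    have := Real.log_le_sub_one_of_pos (show 0 < r by linarith)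
    linarith
  have hrpos : 0 ≤ r := by linarith
  nlinarith [abs_nonneg (y - τ * x - γ)]

lemma div_log_mono {a b : ℝ} (ha : Real.exp 1 ≤ a) (hab : a ≤ b) :
    a / Real.log a ≤ b / Real.log b := by
  have hapos : 0 < a := lt_of_lt_of_le (Real.exp_pos 1) ha
  have hbpos : 0 < b := lt_of_lt_of_le hapos hab
  have hla : 0 < Real.log a := by
    have : 1 ≤ Real.log a := by
      rw [Real.le_log_iff_exp_le hapos]; exact ha
    linarith
  have hlb : 0 < Real.log b := lt_of_lt_of_le hla (Real.log_le_log hapos hab)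
  have h := Real.log_div_self_antitoneOn (Set.mem_Ici.mpr ha) (Set.mem_Ici.mpr (ha.trans hab)) hab
  simp only at h
  rw [div_le_div_iff₀ hbpos hapos] at h
  rw [div_le_div_iff₀ hla hlb]
  linarith

lemma log_wallMod_le (D H : ℕ) (hH : D + 3 ≤ H) :
    Real.log (wallMod D H) ≤ ((D : ℝ) + 1) * ((H : ℝ) + 1) * (2 * Real.log H + 1) := by
  have hHpos : (0 : ℝ) < H := by
    have : 0 < H := by omega
    exact_mod_cast this
  have h1 : (wallMod D H : ℝ) ≤ (2 * (H : ℝ) ^ 2) ^ ((D + 1) * (H + 1)) := by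
    have h2 := wallMod_le D H
    have h3 : ((D + 3) ^ 2 + H ^ 2) ^ ((D + 1) * (H + 1)) ≤ (2 * H ^ 2) ^ ((D + 1) * (H + 1)) := by
      apply Nat.pow_le_pow_left
      have : (D + 3) ^ 2 ≤ H ^ 2 := Nat.pow_le_pow_left hH 2
      omega
    exact_mod_cast h2.trans h3
  have hLpos : (0 : ℝ) < wallMod D H := by exact_mod_cast wallMod_pos D H
  have h4 := Real.log_le_log hLpos h1
  rw [Real.log_pow, Real.log_mul (by norm_num) (by positivity), Real.log_pow] at h4
  have h5 : Real.log 2 ≤ 1 := by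
    have := Real.log_two_lt_d9
    linarith
  have h6 : (((D + 1) * (H + 1) : ℕ) : ℝ) = ((D : ℝ) + 1) * ((H : ℝ) + 1) := by push_cast; ring
  rw [h6] at h4
  have h7 : (0 : ℝ) ≤ ((D : ℝ) + 1) * ((H : ℝ) + 1) := by positivity
  calc Real.log (wallMod D H) ≤ ((D : ℝ) + 1) * ((H : ℝ) + 1) * (Real.log 2 + (2 : ℕ) * Real.log H) := h4
    _ ≤ ((D : ℝ) + 1) * ((H : ℝ) + 1) * (2 * Real.log H + 1) := by
        apply mul_le_mul_of_nonneg_left _ h7
        push_cast
        linarith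

lemma near_good (D H : ℕ) (r : ℝ) (hH : D + 3 ≤ H) (hH81 : 81 ≤ H) (hr16 : 16 ≤ r)
    (hr : r ≤ 8 * (wallMod D H : ℝ) ^ 2) :
    Real.log r / Real.log (Real.log r) ≤ 5 * ((D : ℝ) + 1) * H := by
  have hHr : (81 : ℝ) ≤ H := by exact_mod_cast hH81
  have hHpos : (0 : ℝ) < H := by linarith
  set l := Real.log H with hl
  have hl4 : 4 ≤ l := by
    have h1 : Real.log 81 ≤ l := Real.log_le_log (by norm_num) hHr
    have h2 : Real.log 81 = 4 * Real.log 3 := by
      rw [show (81 : ℝ) = 3 ^ 4 by norm_num, Real.log_pow]; norm_num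
    have h3 : 1 ≤ Real.log 3 := by
      rw [Real.le_log_iff_exp_le (by norm_num)]
      have := Real.exp_one_lt_d9
      linarith
    linarith
  have hLpos : (0 : ℝ) < wallMod D H := by exact_mod_cast wallMod_pos D H
  have hrpos : 0 < r := by linarith
  have hlogr : Real.log r ≤ 3 + 2 * Real.log (wallMod D H) := by
    have h1 := Real.log_le_log hrpos hr
    rw [Real.log_mul (by norm_num) (by positivity), Real.log_pow] at h1
    have h2 : Real.log 8 = 3 * Real.log 2 := by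
      rw [show (8 : ℝ) = 2 ^ 3 by norm_num, Real.log_pow]; norm_num
    have h3 := Real.log_two_lt_d9
    push_cast at h1
    linarith
  have hLlog := log_wallMod_le D H hH
  have hD0 : (0 : ℝ) ≤ D := Nat.cast_nonneg D
  set Y := 5 * ((D : ℝ) + 1) * H * l with hY
  have hlogrY : Real.log r ≤ Y := by
    have h1 : 3 + 2 * ((H : ℝ) + 1) * (2 * l + 1) ≤ 5 * H * l := by nlinarith
    have h2 : 3 + 2 * (((D : ℝ) + 1) * ((H : ℝ) + 1) * (2 * l + 1))
        ≤ ((D : ℝ) + 1) * (3 + 2 * ((H : ℝ) + 1) * (2 * l + 1)) := by nlinarith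
    have h3 : ((D : ℝ) + 1) * (3 + 2 * ((H : ℝ) + 1) * (2 * l + 1)) ≤ ((D : ℝ) + 1) * (5 * H * l) :=
      mul_le_mul_of_nonneg_left h1 (by linarith)
    rw [hY]
    nlinarith
  have hmono := div_log_mono (exp_one_le_log hr16) hlogrY
  have hHY : (H : ℝ) ≤ Y := by
    rw [hY]
    have : 1 ≤ 5 * ((D : ℝ) + 1) * l := by nlinarith
    nlinarith
  have hlY : l ≤ Real.log Y := Real.log_le_log hHpos hHY
  have hYpos : 0 ≤ Y := by linarith
  have hlpos : 0 < l := by linarith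
  calc Real.log r / Real.log (Real.log r) ≤ Y / Real.log Y := hmono
    _ ≤ Y / l := div_le_div_of_nonneg_left hYpos hlpos hlY
    _ = 5 * ((D : ℝ) + 1) * H := by
        rw [hY]; field_simp



lemma exists_far_index (x y : ℕ → ℤ) (hinj : Function.Injective (fun n => (x n, y n)))
    (T : ℕ) (N : ℕ) : ∃ n, N ≤ n ∧ ((T : ℤ) < |x n| ∨ (T : ℤ) < |y n|) := by
  have hfin : (↑(Finset.Icc (-(T : ℤ)) T ×ˢ Finset.Icc (-(T : ℤ)) T) : Set (ℤ × ℤ)).Finite :=
    Finset.finite_toSet _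
  have h1 := hinj.tendsto_cofinite
  rw [Nat.cofinite_eq_atTop] at h1
  have h2 : ∀ᶠ n in Filter.atTop, (x n, y n) ∉
      (↑(Finset.Icc (-(T : ℤ)) T ×ˢ Finset.Icc (-(T : ℤ)) T) : Set (ℤ × ℤ)) :=
    h1.eventually hfin.compl_mem_cofinite
  obtain ⟨n, hn1, hn2⟩ := (h2.and (Filter.eventually_ge_atTop N)).exists
  refine ⟨n, hn2, ?_⟩
  by_contra hcon
  rw [not_or, not_lt, not_lt] at hcon
  apply hn1
  simp only [Finset.coe_product, Finset.coe_Icc, Set.mem_prod, Set.mem_Icc]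
  have := abs_le.mp hcon.1
  have := abs_le.mp hcon.2
  omega

theorem subcore (D : ℕ) (x y : ℕ → ℤ)
    (hirr : ∀ n, Irreducible (⟨x n, y n⟩ : GaussianInt))
    (hinj : Function.Injective (fun n => (x n, y n)))
    (hstep : ∀ n, |x (n + 1) - x n| ≤ (D : ℤ))
    (τ γ : ℝ) (hτ : |τ| ≤ 1) (N : ℕ) :
    ∃ n, N ≤ n ∧
      Real.log (Real.sqrt ((x n : ℝ) ^ 2 + (y n : ℝ) ^ 2)) /
        Real.log (Real.log (Real.sqrt ((x n : ℝ) ^ 2 + (y n : ℝ) ^ 2)))
      ≤ (28 / 5) * ((D : ℝ) + 1) * |(y n : ℝ) - τ * x n - γ| := by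
  have hD0 : (0 : ℝ) ≤ D := Nat.cast_nonneg D
  have hC : (4 : ℝ) ≤ (28 / 5) * ((D : ℝ) + 1) := by linarith
  set E : ℝ := D + 3 + |γ| with hE
  have hE0 : 0 ≤ E := by positivity
  set B : ℕ := ∑ k ∈ Finset.range (N + 1), (x k).natAbs with hB
  have hBk : ∀ k ≤ N, (x k).natAbs ≤ B := by
    intro k hk
    exact Finset.single_le_sum (f := fun k => (x k).natAbs) (fun i _ => Nat.zero_le _)
      (Finset.mem_range.mpr (by omega))
  set H : ℕ := max (max (D + 3) 81) (max (B + 1) ⌈10 * E⌉₊) with hH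
  have hH1 : D + 3 ≤ H := le_trans (le_max_left _ _) (le_max_left _ _)
  have hH2 : 81 ≤ H := le_trans (le_max_right _ _) (le_max_left _ _)
  have hH3 : B + 1 ≤ H := le_trans (le_max_left _ _) (le_max_right _ _)
  have hH4 : 10 * E ≤ (H : ℝ) := by
    have h1 : ⌈10 * E⌉₊ ≤ H := le_trans (le_max_right _ _) (le_max_right _ _)
    exact le_trans (Nat.le_ceil _) (by exact_mod_cast h1)
  set L : ℕ := wallMod D H with hL
  have hLpos : 0 < L := wallMod_pos D H
  have hLH : H ≤ L := by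
    have h1 : ((0 + 3) ^ 2 + H ^ 2) ∣ L := dvd_wallMod (Nat.zero_le D) (le_refl H)
    have h2 := Nat.le_of_dvd hLpos h1
    nlinarith
  obtain ⟨n0, m, hm0, hmL, hdir⟩ := Real.exists_int_int_abs_mul_sub_le τ hLpos
  set A : ℤ := (L : ℤ) * m + 3 with hA
  have hLm : (L : ℤ) ≤ (L : ℤ) * m := by
    have : (0 : ℤ) < L := by exact_mod_cast hLpos
    nlinarith
  have hLmu : (L : ℤ) * m ≤ (L : ℤ) * L := by
    have : (0 : ℤ) < L := by exact_mod_cast hLpos
    nlinarith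
  have h0 : ∀ k ≤ N, |x k| < A := by
    intro k hk
    have h1 := hBk k hk
    rw [Int.abs_eq_natAbs]
    have h2 : ((x k).natAbs : ℤ) ≤ B := by exact_mod_cast h1
    have h3 : (B : ℤ) + 1 ≤ H := by exact_mod_cast hH3
    have h4 : (H : ℤ) ≤ L := by exact_mod_cast hLH
    omega
  have hHr81 : (81 : ℝ) ≤ H := by exact_mod_cast hH2
  have hLHr : (H : ℝ) ≤ L := by exact_mod_cast hLH
  by_cases hex : ∃ n, A ≤ |x n|
  · obtain ⟨k, hNk, hk1, hk2⟩ := crossing x D A hstep N h0 hex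
    refine ⟨k, hNk.le, ?_⟩
    obtain ⟨s, hs, hsx⟩ : ∃ s : ℤ, (s = 1 ∨ s = -1) ∧ s * x k = |x k| := by
      rcases le_total 0 (x k) with h | h
      · exact ⟨1, Or.inl rfl, by rw [abs_of_nonneg h]; ring⟩
      · exact ⟨-1, Or.inr rfl, by rw [abs_of_nonpos h]; ring⟩
    have hwall : (H : ℤ) < |y k - s * ((L : ℤ) * n0)| := by
      by_contra hcon
      rw [not_lt] at hcon
      exact wall_block D H m n0 s (x k) (y k) hs hm0 (by rw [hsx]; exact hk1)
        (by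
          show s * x k ≤ (L : ℤ) * m + D + 3
          rw [hsx]; omega) hcon (hirr k)
    set xr : ℝ := (x k : ℝ) with hxr
    set yr : ℝ := (y k : ℝ) with hyr
    set r : ℝ := Real.sqrt (xr ^ 2 + yr ^ 2) with hr
    have hsr : ((s : ℝ) = 1 ∨ (s : ℝ) = -1) := by
      rcases hs with h | h
      · left; rw [h]; norm_num
      · right; rw [h]; norm_num
    have habs_s : |(s : ℝ)| = 1 := by
      rcases hsr with h | h <;> rw [h] <;> norm_num
    have hw1 : (H : ℝ) + 1 ≤ |yr - s * ((L : ℝ) * n0)| := by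
      have h1 : (H : ℤ) + 1 ≤ |y k - s * ((L : ℤ) * n0)| := by omega
      have h2 : (((H : ℤ) + 1 : ℤ) : ℝ) ≤ ((|y k - s * ((L : ℤ) * n0)| : ℤ) : ℝ) := by
        exact_mod_cast h1
      push_cast at h2
      exact h2
    have hLr : (0 : ℝ) < L := by exact_mod_cast hLpos
    have hw2 : |(s : ℝ) * ((L : ℝ) * n0 - τ * ((L : ℝ) * m))| ≤ 1 := by
      rw [abs_mul, habs_s, one_mul]
      have h1 : (L : ℝ) * n0 - τ * ((L : ℝ) * m) = -((L : ℝ) * ((m : ℝ) * τ - n0)) := by ring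
      rw [h1, abs_neg, abs_mul, abs_of_pos hLr]
      calc (L : ℝ) * |(m : ℝ) * τ - n0| ≤ (L : ℝ) * (1 / ((L : ℝ) + 1)) :=
            mul_le_mul_of_nonneg_left hdir hLr.le
        _ ≤ 1 := by
            rw [mul_one_div, div_le_one (by linarith)]
            linarith
    have hw3 : |τ * (xr - s * ((L : ℝ) * m))| ≤ (D : ℝ) + 3 := by
      rw [abs_mul]
      have h1 : |xr - s * ((L : ℝ) * m)| = |(s : ℝ) * xr - (L : ℝ) * m| := by
        rcases hsr with h | h
        · rw [h]; simp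
        · rw [h]
          have : xr - -1 * ((L : ℝ) * m) = -(-1 * xr - (L : ℝ) * m) := by ring
          rw [this, abs_neg]
      have h2 : (s : ℝ) * xr - (L : ℝ) * m = ((s * x k - (L : ℤ) * m : ℤ) : ℝ) := by
        push_cast; ring
      have h3 : |((s * x k - (L : ℤ) * m : ℤ) : ℝ)| ≤ (D : ℝ) + 3 := by
        have h4 : |s * x k - (L : ℤ) * m| ≤ (D : ℤ) + 3 := by
          rw [hsx, abs_le]; constructor <;> omega
        have h5 : ((|s * x k - (L : ℤ) * m| : ℤ) : ℝ) ≤ (((D : ℤ) + 3 : ℤ) : ℝ) := by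
          exact_mod_cast h4
        push_cast at h5
        push_cast
        exact h5
      rw [h1, h2]
      calc |τ| * |((s * x k - (L : ℤ) * m : ℤ) : ℝ)| ≤ 1 * ((D : ℝ) + 3) :=
            mul_le_mul hτ h3 (abs_nonneg _) (by norm_num)
        _ = (D : ℝ) + 3 := one_mul _
    have hlow : (H : ℝ) - E ≤ |yr - τ * xr - γ| := by
      have e1 : yr - s * ((L : ℝ) * n0) = (yr - τ * xr - γ)
          - (s : ℝ) * ((L : ℝ) * n0 - τ * ((L : ℝ) * m)) + τ * (xr - s * ((L : ℝ) * m)) + γ := by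
        ring
      have e2 : |yr - s * ((L : ℝ) * n0)| ≤ |yr - τ * xr - γ|
          + |(s : ℝ) * ((L : ℝ) * n0 - τ * ((L : ℝ) * m))| + |τ * (xr - s * ((L : ℝ) * m))| + |γ| := by
        rw [e1]
        calc _ ≤ |(yr - τ * xr - γ) - (s : ℝ) * ((L : ℝ) * n0 - τ * ((L : ℝ) * m))
                + τ * (xr - s * ((L : ℝ) * m))| + |γ| := abs_add_le _ _
          _ ≤ |(yr - τ * xr - γ) - (s : ℝ) * ((L : ℝ) * n0 - τ * ((L : ℝ) * m))|
                + |τ * (xr - s * ((L : ℝ) * m))| + |γ| := by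
              have := abs_add_le ((yr - τ * xr - γ) - (s : ℝ) * ((L : ℝ) * n0 - τ * ((L : ℝ) * m)))
                (τ * (xr - s * ((L : ℝ) * m)))
              linarith
          _ ≤ _ := by
              have := abs_sub (yr - τ * xr - γ) ((s : ℝ) * ((L : ℝ) * n0 - τ * ((L : ℝ) * m)))
              linarith
      rw [hE]
      linarith
    have hxabs : |xr| = ((|x k| : ℤ) : ℝ) := by rw [hxr]; push_cast; rfl
    have hxlow : (L : ℝ) ≤ |xr| := by
      rw [hxabs]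
      have : (L : ℤ) ≤ |x k| := by omega
      exact_mod_cast this
    have hxup : |xr| ≤ 2 * (L : ℝ) ^ 2 := by
      rw [hxabs]
      have h1 : |x k| ≤ (L : ℤ) * L + D + 3 := by omega
      have h2 : (D : ℤ) + 3 ≤ L := by
        have : D + 3 ≤ L := hH1.trans hLH
        exact_mod_cast this
      have h3 : (L : ℤ) ≤ (L : ℤ) * L := by
        have : (0 : ℤ) < L := by exact_mod_cast hLpos
        nlinarith
      have h4 : |x k| ≤ 2 * (L : ℤ) ^ 2 := by nlinarith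
      exact_mod_cast h4
    have hrx : |xr| ≤ r := Real.abs_le_sqrt (by nlinarith [sq_nonneg yr])
    have hr16 : 16 ≤ r := by linarith
    have hγ : |γ| ≤ E := by rw [hE]; linarith
    by_cases hfar : 4 * |xr| ≤ r
    · exact far_good xr yr τ γ _ hτ hC hfar hr16 (by linarith)
    · rw [not_le] at hfar
      have h1 := near_good D H r hH1 hH2 hr16 (by linarith)
      have h2 : 5 * ((D : ℝ) + 1) * H ≤ (28 / 5) * ((D : ℝ) + 1) * ((H : ℝ) - E) := by nlinarith
      have h3 : (28 / 5) * ((D : ℝ) + 1) * ((H : ℝ) - E)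
          ≤ (28 / 5) * ((D : ℝ) + 1) * |yr - τ * xr - γ| :=
        mul_le_mul_of_nonneg_left hlow (by linarith)
      linarith
  · rw [not_exists] at hex
    set T : ℕ := max (4 * A).toNat (max 16 ⌈4 * |γ|⌉₊) with hT
    have hT1 : 4 * A ≤ (T : ℤ) := by
      have : (4 * A).toNat ≤ T := le_max_left _ _
      omega
    have hT2 : 16 ≤ T := le_trans (le_max_left _ _) (le_max_right _ _)
    have hT3 : 4 * |γ| ≤ (T : ℝ) := by
      have h1 : ⌈4 * |γ|⌉₊ ≤ T := le_trans (le_max_right _ _) (le_max_right _ _)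
      exact le_trans (Nat.le_ceil _) (by exact_mod_cast h1)
    obtain ⟨n, hNn, hn⟩ := exists_far_index x y hinj T N
    refine ⟨n, hNn, ?_⟩
    have hxn : |x n| < A := not_le.mp (hex n)
    have hyn : (T : ℤ) < |y n| := by
      rcases hn with h | h
      · have : 0 ≤ |x n| := abs_nonneg _
        omega
      · exact h
    have hyr : (T : ℝ) ≤ |(y n : ℝ)| := by
      have : ((T : ℤ) : ℝ) ≤ ((|y n| : ℤ) : ℝ) := by exact_mod_cast hyn.le
      push_cast at this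
      exact this
    have hry : |(y n : ℝ)| ≤ Real.sqrt ((x n : ℝ) ^ 2 + (y n : ℝ) ^ 2) :=
      Real.abs_le_sqrt (by nlinarith [sq_nonneg (x n : ℝ)])
    have hxr : 4 * |(x n : ℝ)| ≤ (T : ℝ) := by
      have h1 : 4 * |x n| ≤ (T : ℤ) := by omega
      have : ((4 * |x n| : ℤ) : ℝ) ≤ ((T : ℤ) : ℝ) := by exact_mod_cast h1
      push_cast at this
      exact this
    have hT2r : (16 : ℝ) ≤ T := by exact_mod_cast hT2
    exact far_good _ _ τ γ _ hτ hC (by linarith) (by linarith) (by linarith)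



theorem core (D : ℕ) (x y : ℕ → ℤ)
    (hirr : ∀ n, Irreducible (⟨x n, y n⟩ : GaussianInt))
    (hinj : Function.Injective (fun n => (x n, y n)))
    (hstep : ∀ n, |x (n + 1) - x n| ≤ (D : ℤ))
    (v1 v2 p1 p2 : ℝ) (hv : |v2| ≤ |v1|) (hv1 : v1 ≠ 0) (N : ℕ) :
    ∃ n, N ≤ n ∧
      Real.log (Real.sqrt ((x n : ℝ) ^ 2 + (y n : ℝ) ^ 2)) /
        Real.log (Real.log (Real.sqrt ((x n : ℝ) ^ 2 + (y n : ℝ) ^ 2)))
      ≤ 8 * ((D : ℝ) + 1) *
        (|((y n : ℝ) - p2) * v1 - ((x n : ℝ) - p1) * v2| / Real.sqrt (v1 ^ 2 + v2 ^ 2)) := by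
  have hv1pos : 0 < |v1| := abs_pos.mpr hv1
  have hτ : |v2 / v1| ≤ 1 := by
    rw [abs_div, div_le_one hv1pos]; exact hv
  obtain ⟨n, hNn, hn⟩ := subcore D x y hirr hinj hstep (v2 / v1) (p2 - v2 / v1 * p1) hτ N
  refine ⟨n, hNn, le_trans hn ?_⟩
  have hD0 : (0 : ℝ) ≤ D := Nat.cast_nonneg D
  set W : ℝ := ((y n : ℝ) - p2) * v1 - ((x n : ℝ) - p1) * v2 with hW
  have h1 : (y n : ℝ) - v2 / v1 * x n - (p2 - v2 / v1 * p1) = W / v1 := by
    rw [hW]; field_simp; ring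
  rw [h1, abs_div]
  have hs : Real.sqrt (v1 ^ 2 + v2 ^ 2) ≤ (10 / 7) * |v1| := by
    apply Real.sqrt_le_iff.mpr
    constructor
    · positivity
    · have h2 : v2 ^ 2 ≤ v1 ^ 2 := sq_le_sq.mpr hv
      have h4 : ((10 / 7) * |v1|) ^ 2 = (100 / 49) * v1 ^ 2 := by
        rw [mul_pow, sq_abs]; norm_num
      rw [h4]
      nlinarith [sq_nonneg v1]
  have hspos : 0 < Real.sqrt (v1 ^ 2 + v2 ^ 2) := by
    apply Real.sqrt_pos.mpr
    have : 0 < v1 ^ 2 := by positivity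
    nlinarith [sq_nonneg v2]
  have h5 : |W| / |v1| ≤ (10 / 7) * (|W| / Real.sqrt (v1 ^ 2 + v2 ^ 2)) := by
    rw [div_le_iff₀ hv1pos]
    have h6 : (10 / 7) * (|W| / Real.sqrt (v1 ^ 2 + v2 ^ 2)) * |v1|
        = |W| * ((10 / 7) * |v1| / Real.sqrt (v1 ^ 2 + v2 ^ 2)) := by ring
    rw [h6]
    have h7 : 1 ≤ (10 / 7) * |v1| / Real.sqrt (v1 ^ 2 + v2 ^ 2) := by
      rw [le_div_iff₀ hspos]; linarith
    nlinarith [abs_nonneg W]
  have h8 : 0 ≤ |W| / Real.sqrt (v1 ^ 2 + v2 ^ 2) := by positivity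
  calc 28 / 5 * ((D : ℝ) + 1) * (|W| / |v1|)
      ≤ 28 / 5 * ((D : ℝ) + 1) * ((10 / 7) * (|W| / Real.sqrt (v1 ^ 2 + v2 ^ 2))) :=
        mul_le_mul_of_nonneg_left h5 (by positivity)
    _ = 8 * ((D : ℝ) + 1) * (|W| / Real.sqrt (v1 ^ 2 + v2 ^ 2)) := by ring

lemma irreducible_swap (a b : ℤ) (h : Irreducible (⟨a, b⟩ : GaussianInt)) :
    Irreducible (⟨b, a⟩ : GaussianInt) := by
  have h1 : (⟨b, a⟩ : GaussianInt) = (⟨0, 1⟩ : GaussianInt) * star (⟨a, b⟩ : GaussianInt) := by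
    apply Zsqrtd.ext <;> simp
  have hu : IsUnit (⟨0, 1⟩ : GaussianInt) := by
    rw [← Zsqrtd.norm_eq_one_iff]
    simp [Zsqrtd.norm_def]
  rw [h1, irreducible_isUnit_mul hu]
  exact (MulEquiv.irreducible_iff (starMulAut : MulAut GaussianInt)).mpr h

theorem core_all (D : ℕ) (x y : ℕ → ℤ)
    (hirr : ∀ n, Irreducible (⟨x n, y n⟩ : GaussianInt))
    (hinj : Function.Injective (fun n => (x n, y n)))
    (hstepx : ∀ n, |x (n + 1) - x n| ≤ (D : ℤ))
    (hstepy : ∀ n, |y (n + 1) - y n| ≤ (D : ℤ))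
    (v1 v2 p1 p2 : ℝ) (hv : v1 ≠ 0 ∨ v2 ≠ 0) (N : ℕ) :
    ∃ n, N ≤ n ∧
      Real.log (Real.sqrt ((x n : ℝ) ^ 2 + (y n : ℝ) ^ 2)) /
        Real.log (Real.log (Real.sqrt ((x n : ℝ) ^ 2 + (y n : ℝ) ^ 2)))
      ≤ 8 * ((D : ℝ) + 1) *
        (|((y n : ℝ) - p2) * v1 - ((x n : ℝ) - p1) * v2| / Real.sqrt (v1 ^ 2 + v2 ^ 2)) := by
  rcases le_total |v2| |v1| with h | h
  · have hv1 : v1 ≠ 0 := by
      intro h0
      rw [h0, abs_zero] at h
      have : v2 = 0 := abs_eq_zero.mp (le_antisymm h (abs_nonneg _))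
      rcases hv with h1 | h1
      · exact h1 h0
      · exact h1 this
    exact core D x y hirr hinj hstepx v1 v2 p1 p2 h hv1 N
  · have hv2 : v2 ≠ 0 := by
      intro h0
      rw [h0, abs_zero] at h
      have : v1 = 0 := abs_eq_zero.mp (le_antisymm h (abs_nonneg _))
      rcases hv with h1 | h1
      · exact h1 this
      · exact h1 h0
    have hinj' : Function.Injective (fun n => (y n, x n)) := by
      intro a b hab
      simp only [Prod.mk.injEq] at hab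
      exact hinj (by simp only [Prod.mk.injEq]; exact ⟨hab.2, hab.1⟩)
    obtain ⟨n, hNn, hn⟩ := core D y x (fun n => irreducible_swap _ _ (hirr n)) hinj' hstepy
      v2 v1 p2 p1 h hv2 N
    refine ⟨n, hNn, ?_⟩
    have e1 : (y n : ℝ) ^ 2 + (x n : ℝ) ^ 2 = (x n : ℝ) ^ 2 + (y n : ℝ) ^ 2 := add_comm _ _
    have e2 : v2 ^ 2 + v1 ^ 2 = v1 ^ 2 + v2 ^ 2 := add_comm _ _
    have e3 : |((x n : ℝ) - p1) * v2 - ((y n : ℝ) - p2) * v1|
        = |((y n : ℝ) - p2) * v1 - ((x n : ℝ) - p1) * v2| := abs_sub_comm _ _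
    rw [e1, e2, e3] at hn
    exact hn

end Vale.Agent.P015
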